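import Mathlib

/-! Closed neighbourhoods for a reflexive antisymmetric relation `E` (`E x y`: `x = y` or there is
an arc from `x` to `y`), and the function `c S = |N[S]| - |S|`. -/

namespace Vale.Agent.P038.H119

open Finset
open scoped Classical

variable {V : Type*} [Fintype V]

/-- The closed out-neighbourhood of a set. -/
noncomputable def N (E : V → V → Prop) (S : Finset V) : Finset V :=
  univ.filter fun y => ∃ x ∈ S, E x y

/-- `c S = |N[S]| - |S|`. -/
noncomputable def c (E : V → V → Prop) (S : Finset V) : ℤ := ((N E S).card : ℤ) - (S.card : ℤ)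

theorem mem_N {E : V → V → Prop} {S : Finset V} {y : V} : y ∈ N E S ↔ ∃ x ∈ S, E x y := by
  simp [N]

theorem N_mono {E : V → V → Prop} {S T : Finset V} (h : S ⊆ T) : N E S ⊆ N E T := by
  intro y hy
  rw [mem_N] at hy ⊢
  obtain ⟨x, hx, hxy⟩ := hy
  exact ⟨x, h hx, hxy⟩

theorem N_union {E : V → V → Prop} (S T : Finset V) : N E (S ∪ T) = N E S ∪ N E T := by
  ext y
  simp only [mem_N, mem_union]
  constructor
  · rintro ⟨x, hx | hx, h⟩
    · exact Or.inl ⟨x, hx, h⟩
    · exact Or.inr ⟨x, hx, h⟩
  · rintro (⟨x, hx, h⟩ | ⟨x, hx, h⟩)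
    · exact ⟨x, Or.inl hx, h⟩
    · exact ⟨x, Or.inr hx, h⟩

theorem subset_N {E : V → V → Prop} (hE : ∀ x, E x x) (S : Finset V) : S ⊆ N E S := by
  intro x hx
  rw [mem_N]
  exact ⟨x, hx, hE x⟩

/-- Submodularity with the exact defect. -/
theorem c_union_inter (E : V → V → Prop) (S T : Finset V) :
    c E (S ∪ T) + c E (S ∩ T) + (((N E S ∩ N E T) \ N E (S ∩ T)).card : ℤ) = c E S + c E T := by
  have h1 := card_union_add_card_inter S T
  have h2 := card_union_add_card_inter (N E S) (N E T)
  have h3 : N E (S ∩ T) ⊆ N E S ∩ N E T :=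
    subset_inter (N_mono inter_subset_left) (N_mono inter_subset_right)
  have h4 := card_sdiff_add_card_eq_card h3
  unfold c
  rw [N_union]
  omega

theorem c_submod (E : V → V → Prop) (S T : Finset V) :
    c E (S ∪ T) + c E (S ∩ T) ≤ c E S + c E T := by
  have := c_union_inter E S T
  have h : (0 : ℤ) ≤ (((N E S ∩ N E T) \ N E (S ∩ T)).card : ℤ) := by positivity
  linarith

/-- The chain lemma. -/
theorem chain (E : V → V → Prop) {ι : Type*} (Y : ι → Finset V) (T : Finset V) (I : Finset ι)
    (h : ∀ i ∈ I, ∀ S ⊆ T, c E (Y i) ≤ c E (S ∪ Y i)) :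
    c E (T.filter fun x => ∀ i ∈ I, x ∈ Y i) ≤ c E T := by
  induction I using Finset.induction_on with
  | empty => simp
  | insert j I hj ih =>
    have ih' := ih fun i hi => h i (mem_insert_of_mem hi)
    set S := T.filter fun x => ∀ i ∈ I, x ∈ Y i with hS
    have e : (T.filter fun x => ∀ i ∈ insert j I, x ∈ Y i) = S ∩ Y j := by
      ext x
      simp only [hS, mem_filter, mem_inter, mem_insert, forall_eq_or_imp]
      tauto
    rw [e]
    have h1 := c_submod E S (Y j)
    have h2 := h j (mem_insert_self _ _) S (filter_subset _ _)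
    linarith

end Vale.Agent.P038.H119
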