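import Vale.Agent.P038.H119.Base

namespace Vale.Agent.P038.H119

open Finset
open scoped Classical

variable {V : Type*} [Fintype V]

/-- The reflexive closure of an arc relation. -/
def Cl (R : V → V → Prop) : V → V → Prop := fun x y => x = y ∨ R x y

/-- First out-neighbourhood. -/
noncomputable def N1 (R : V → V → Prop) (v : V) : Finset V := univ.filter fun u => R v u

/-- Second out-neighbourhood. -/
noncomputable def N2 (R : V → V → Prop) (v : V) : Finset V :=
  univ.filter fun u => u ≠ v ∧ ¬ R v u ∧ ∃ x, R v x ∧ R x u

/-- `R` is an oriented graph which violates the conjecture. -/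
def Bad (R : V → V → Prop) : Prop :=
  (∀ u v, R u v → ¬ R v u) ∧ ∀ v, (N2 R v).card < (N1 R v).card

end Vale.Agent.P038.H119
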